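import Vale.Agent.P331.MathlibUsed

/-!
# One-sample matroid prophet inequalities against the almighty adversary: definitions
-/

namespace Vale.Agent.P331

open MeasureTheory
open scoped ENNReal NNReal Classical

variable {E : Type*}

/-- `OPT_M(v)`: the largest total value of an independent set. -/
noncomputable def opt (M : Matroid E) (v : E → ℝ≥0) : ℝ≥0∞ :=
  ⨆ (I : Finset E) (_ : M.Indep (I : Set E)), ∑ e ∈ I, (v e : ℝ≥0∞)

/-- The set accepted after a history `h` (a list of pairs (element, value), most recent arrival
first), if `dec h x` says whether the arrival `x` is accepted when it comes right after `h`. -/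
noncomputable def accepted (dec : List (E × ℝ≥0) → E × ℝ≥0 → Prop) : List (E × ℝ≥0) → Finset E
  | [] => ∅
  | x :: h => if dec h x then insert x.1 (accepted dec h) else accepted dec h

/-- An arrival order: a list in which every element occurs exactly once; its head arrives
first. -/
def Order (E : Type*) : Type _ := {o : List E // o.Nodup ∧ ∀ e, e ∈ o}

/-- The complete history (most recent arrival first) if the values are `v` and the elements arrive
in the order `o`. -/
def history (v : E → ℝ≥0) (o : Order E) : List (E × ℝ≥0) :=
  (o.1.map fun e => (e, v e)).reverse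

/-- A measurable online rule with one sample per element for the matroid `M`: given the seed `r`
(of law `law`) and the sample `s`, `accept r s h x` says whether the arrival `x` (an element with
its value) is accepted when it comes right after the history `h`. -/
structure OnlineRule (M : Matroid E) where
  Seed : Type
  [seedSpace : MeasurableSpace Seed]
  law : Measure Seed
  isProb : IsProbabilityMeasure law
  accept : Seed → (E → ℝ≥0) → List (E × ℝ≥0) → E × ℝ≥0 → Prop
  measurable_accept : ∀ (l : List E) (e : E),
    MeasurableSet {ω : Seed × (E → ℝ≥0) × (E → ℝ≥0) |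
      accept ω.1 ω.2.1 (l.map fun f => (f, ω.2.2 f)) (e, ω.2.2 e)}
  feasible : ∀ (r : Seed) (s : E → ℝ≥0) (h : List (E × ℝ≥0)), (h.map Prod.fst).Nodup →
    M.Indep (accepted (accept r s) h : Set E)

attribute [instance] OnlineRule.seedSpace OnlineRule.isProb

/-- The total value accepted for seed `r`, sample `s`, values `v` and arrival order `o`. -/
noncomputable def OnlineRule.gain {M : Matroid E} (R : OnlineRule M)
    (r : R.Seed) (s v : E → ℝ≥0) (o : Order E) : ℝ≥0∞ :=
  ∑ e ∈ accepted (R.accept r s) (history v o), (v e : ℝ≥0∞)

/-- `R` is `c`-competitive against the almighty adversary: for all laws `D` with finite expected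
optimum and every arrival order `π` that is a measurable function of the seed, the sample and the
values. -/
def OnlineRule.IsCompetitive [Fintype E] {M : Matroid E} (R : OnlineRule M) (c : ℝ≥0∞) : Prop :=
  ∀ D : E → Measure ℝ≥0, (∀ e, IsProbabilityMeasure (D e)) →
    (∫⁻ v, opt M v ∂(Measure.pi D)) < ∞ →
    ∀ π : R.Seed × (E → ℝ≥0) × (E → ℝ≥0) → Order E, (∀ o, MeasurableSet (π ⁻¹' {o})) →
      c * ∫⁻ v, opt M v ∂(Measure.pi D) ≤
        ∫⁻ ω, R.gain ω.1 ω.2.1 ω.2.2 (π ω)
          ∂(R.law.prod ((Measure.pi D).prod (Measure.pi D)))

/-- `c^*(M)`. -/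
noncomputable def cStar [Fintype E] (M : Matroid E) : ℝ≥0∞ :=
  sSup {c | ∃ R : OnlineRule M, R.IsCompetitive c}

end Vale.Agent.P331
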